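import Vale.Agent.P234.H936.L

set_option maxSynthPendingDepth 3
set_option linter.all false

open Bundle Manifold Set Filter
open scoped ContDiff Manifold Topology

namespace Vale.Agent.P234.Reg

noncomputable section

variable {E : Type*} [NormedAddCommGroup E] [NormedSpace ℝ E] [FiniteDimensional ℝ E]
  {M : Type*} [MetricSpace M] [ChartedSpace E M]
  [RiemannianBundle (fun x : M => TangentSpace 𝓘(ℝ, E) x)]
  [IsManifold 𝓘(ℝ, E) ∞ M]
  [IsContMDiffRiemannianBundle 𝓘(ℝ, E) ∞ E (fun x : M => TangentSpace 𝓘(ℝ, E) x)]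
  [CompactSpace M]
  {e : ∀ x : M, TangentSpace 𝓘(ℝ, E) x → M}

/-- Sections of `c`-convex functions are convex, from the maximum principle. -/
lemma convex_section (h : LoeperMax e) {ψ : M → ℝ} (hψ : CConvex ψ) (x : M) (m : ℝ) :
    Convex ℝ {v : TangentSpace 𝓘(ℝ, E) x | dist x (e x v) = ‖v‖ ∧
      ψ (e x v) + cost x (e x v) ≤ m} := by
  obtain ⟨S, hS⟩ := hψ
  intro v hv w hw a b ha hb hab
  obtain rfl : a = 1 - b := by linarith only [hab]
  obtain ⟨h1, h2⟩ := h x v w b hv.1 hw.1 hb (by linarith only [ha])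
  refine ⟨h1, ?_⟩
  have h3 : ψ (e x ((1 - b) • v + b • w)) ≤ m - cost x (e x ((1 - b) • v + b • w)) := by
    refine (hS _).2 ?_
    rintro _ ⟨p, hp, rfl⟩
    have h4 := h2 p.2
    have h5 := (hS (e x v)).1 ⟨p, hp, rfl⟩
    have h6 := (hS (e x w)).1 ⟨p, hp, rfl⟩
    have h7 := hv.2
    have h8 := hw.2
    simp only at h5 h6 ⊢
    rw [cost_comm _ p.2] at h5 h6 ⊢
    rcases le_max_iff.1 h4 with h9 | h9
    · linarith only [h9, h5, h7]
    · linarith only [h9, h6, h8]
  linarith only [h3]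

/-- The maximum principle, from convexity of sections. -/
lemma loeperMax_of_section
    (h : ∀ ψ : M → ℝ, CConvex ψ → ∀ (x : M) (m : ℝ),
      Convex ℝ {v : TangentSpace 𝓘(ℝ, E) x | dist x (e x v) = ‖v‖ ∧
        ψ (e x v) + cost x (e x v) ≤ m}) : LoeperMax e := by
  intro x v w t hv hw ht0 ht1
  have key : ∀ x' : M, dist x (e x ((1 - t) • v + t • w)) = ‖(1 - t) • v + t • w‖ ∧
      0 - cost (e x ((1 - t) • v + t • w)) x' + cost x (e x ((1 - t) • v + t • w)) ≤
        max (cost x (e x v) - cost x' (e x v)) (cost x (e x w) - cost x' (e x w)) := by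
    intro x'
    have hψ : CConvex (fun z : M => 0 - cost z x') := by
      refine ⟨{(0, x')}, fun z => ?_⟩
      rw [image_singleton]
      exact isLUB_singleton
    have h1 := h _ hψ x
      (max (cost x (e x v) - cost x' (e x v)) (cost x (e x w) - cost x' (e x w)))
    exact h1 (x := v) ⟨hv, by
        rw [cost_comm _ x']
        have := le_max_left (cost x (e x v) - cost x' (e x v))
          (cost x (e x w) - cost x' (e x w))
        linarith only [this]⟩
      (y := w) ⟨hw, by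
        rw [cost_comm _ x']
        have := le_max_right (cost x (e x v) - cost x' (e x v))
          (cost x (e x w) - cost x' (e x w))
        linarith only [this]⟩ (sub_nonneg.2 ht1) ht0 (by ring)
  refine ⟨(key x).1, fun x' => ?_⟩
  have h1 := (key x').2
  rw [cost_comm _ x'] at h1
  linarith only [h1]

/-- Local supports are global. -/
lemma global_of_local (F : Facts e)
    (h : ∀ ψ : M → ℝ, CConvex ψ → ∀ x : M,
      subgrad e ψ x = {v | dist x (e x v) = ‖v‖ ∧ e x v ∈ cSubdiff ψ x})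
    {ψ : M → ℝ} (hψ : CConvex ψ) {x y : M}
    (hy : ∀ᶠ x' in 𝓝 x, ψ x + cost x y - cost x' y ≤ ψ x') : y ∈ cSubdiff ψ x := by
  obtain ⟨w, hw1, hw2⟩ := F.hopfRinow x y
  have hwm : w ∈ segMin e x := by
    change dist x (e x w) = ‖w‖
    rw [hw1, hw2]
  have h1 : w ∈ subgrad e ψ x := mem_subgrad_local F hwm (by rw [hw1]; exact hy)
  rw [h ψ hψ x] at h1
  have h2 := h1.2
  rwa [hw1] at h2

/-- All the equivalences. -/
theorem tfae (F : Facts e) :
    List.TFAE [
      WeakMTW e,
      LoeperMax e,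
      ∀ ψ : M → ℝ, CConvex ψ → ∀ x : M,
        subgrad e ψ x = {v | dist x (e x v) = ‖v‖ ∧ e x v ∈ cSubdiff ψ x},
      ∀ ψ : M → ℝ, CConvex ψ → ∀ x : M, IsConnected (cSubdiff ψ x),
      ∀ (a b : ℝ) (y z x : M),
        IsConnected (cSubdiff (fun x' => max (a - cost x' y) (b - cost x' z)) x),
      ∀ ψ : M → ℝ, CConvex ψ → ∀ (x : M) (m : ℝ),
        Convex ℝ {v : TangentSpace 𝓘(ℝ, E) x | dist x (e x v) = ‖v‖ ∧
          ψ (e x v) + cost x (e x v) ≤ m},
      ∀ ψ : M → ℝ, CConvex ψ → ∀ x y : M,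
        (∀ᶠ x' in 𝓝 x, ψ x + cost x y - cost x' y ≤ ψ x') → y ∈ cSubdiff ψ x] := by
  tfae_have 1 → 3 := fun hW ψ hψ x => subgrad_eq F hW hψ x
  tfae_have 3 → 2 := fun h => loeperMax_of F h
  tfae_have 2 → 1 := fun h => weakMTW_of_max F h
  tfae_have 3 → 4 := fun h ψ hψ x => connected_of F h hψ x
  tfae_have 4 → 5 := fun h a b y z x => h _ (cconvex_two2 a b y z) x
  tfae_have 5 → 1 := fun h => weakMTW_of_connected F h
  tfae_have 2 → 6 := fun h ψ hψ x m => convex_section h hψ x m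
  tfae_have 6 → 2 := fun h => loeperMax_of_section h
  tfae_have 3 → 7 := fun h ψ hψ x y hy => global_of_local F h hψ hy
  tfae_have 7 → 1 := fun h => weakMTW_of_local F h
  tfae_finish

end

end Vale.Agent.P234.Reg
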