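import Vale.Agent.P234.Defs

open Bundle Manifold Set Filter
open scoped ContDiff Manifold Topology

namespace Vale.Agent.P234

noncomputable section

/-- `ψ` is `c`-convex: it is a (finite) supremum of mountains `x ↦ a - cost x y`, `(a, y) ∈ S`. -/
def CConvex {M : Type*} [MetricSpace M] (ψ : M → ℝ) : Prop :=
  ∃ S : Set (ℝ × M), ∀ x : M, IsLUB ((fun p : ℝ × M => p.1 - cost x p.2) '' S) (ψ x)

/-- The `c`-subdifferential of `ψ` at `x`: the points `y` such that the mountain with focus `y`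
touching `ψ` at `x` supports `ψ` globally. -/
def cSubdiff {M : Type*} [MetricSpace M] (ψ : M → ℝ) (x : M) : Set M :=
  {y | ∀ x' : M, ψ x + cost x y - cost x' y ≤ ψ x'}

/-- The usual (Frechet) subdifferential of `ψ` at `x`, read in exponential coordinates at `x`. -/
def subgrad {E : Type*} [NormedAddCommGroup E] [NormedSpace ℝ E]
    {M : Type*} [MetricSpace M] [ChartedSpace E M]
    [RiemannianBundle (fun x : M => TangentSpace 𝓘(ℝ, E) x)]
    (e : ∀ x : M, TangentSpace 𝓘(ℝ, E) x → M) (ψ : M → ℝ) (x : M) :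
    Set (TangentSpace 𝓘(ℝ, E) x) :=
  {v | ∀ ε : ℝ, 0 < ε → ∀ᶠ ξ : TangentSpace 𝓘(ℝ, E) x in 𝓝 0,
    ψ x + inner ℝ v ξ - ε * ‖ξ‖ ≤ ψ (e x ξ)}

/-- Loeper's maximum principle, global form. For minimizing vectors `v`, `w` at `x`, every
`u = (1 - t) v + t w`, `0 ≤ t ≤ 1`, is minimizing and the mountain with focus `exp_x u` through
`(x, 0)` lies below the maximum of the mountains with foci `exp_x v` and `exp_x w` through
`(x, 0)`. -/
def LoeperMax {E : Type*} [NormedAddCommGroup E] [NormedSpace ℝ E]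
    {M : Type*} [MetricSpace M] [ChartedSpace E M]
    [RiemannianBundle (fun x : M => TangentSpace 𝓘(ℝ, E) x)]
    (e : ∀ x : M, TangentSpace 𝓘(ℝ, E) x → M) : Prop :=
  ∀ (x : M) (v w : TangentSpace 𝓘(ℝ, E) x) (t : ℝ),
    dist x (e x v) = ‖v‖ → dist x (e x w) = ‖w‖ → 0 ≤ t → t ≤ 1 →
    dist x (e x ((1 - t) • v + t • w)) = ‖(1 - t) • v + t • w‖ ∧
    ∀ x' : M, cost x (e x ((1 - t) • v + t • w)) - cost x' (e x ((1 - t) • v + t • w)) ≤
      max (cost x (e x v) - cost x' (e x v)) (cost x (e x w) - cost x' (e x w))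

end

end Vale.Agent.P234
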