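import Vale.Agent.P231.Bd3.B6
import Vale.Agent.P234.H936.Defs

set_option maxSynthPendingDepth 3
set_option linter.all false

open Bundle Manifold Set Filter
open scoped ContDiff Manifold Topology

namespace Vale.Agent.P234.Reg

noncomputable section

section hull

variable {V : Type*} [NormedAddCommGroup V] [NormedSpace ℝ V] [FiniteDimensional ℝ V]

/-- Caratheodory with a fixed number of vertices. -/
lemma exists_rep {S : Set V} {u : V} (hu : u ∈ convexHull ℝ S) :
    ∃ (lam : Fin (Module.finrank ℝ V + 1) → ℝ) (w : Fin (Module.finrank ℝ V + 1) → V),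
      (∀ j, 0 ≤ lam j) ∧ ∑ j, lam j = 1 ∧ (∀ j, w j ∈ S) ∧ ∑ j, lam j • w j = u := by
  classical
  obtain ⟨ι, hι, w, c, hw, hind, hc, hsum, hcomb⟩ := eq_pos_convex_span_of_mem_convexHull hu
  have hcard : Fintype.card ι ≤ Module.finrank ℝ V + 1 := by
    have h1 := hind.card_le_finrank_succ
    have h2 : Module.finrank ℝ (vectorSpan ℝ (Set.range w))
        ≤ Module.finrank ℝ V := Submodule.finrank_le _
    omega
  have hne : Nonempty ι := by
    by_contra hemp
    rw [not_nonempty_iff] at hemp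
    rw [Fintype.sum_empty] at hsum
    exact zero_ne_one hsum
  obtain ⟨i₀⟩ := hne
  obtain ⟨f⟩ : Nonempty (ι ↪ Fin (Module.finrank ℝ V + 1)) := by
    apply Function.Embedding.nonempty_of_card_le
    rwa [Fintype.card_fin]
  refine ⟨Function.extend f c 0, Function.extend f w (fun _ => w i₀), ?_, ?_, ?_, ?_⟩
  · intro j
    by_cases hj : ∃ i, f i = j
    · obtain ⟨i, rfl⟩ := hj
      rw [f.injective.extend_apply]
      exact (hc i).le
    · rw [Function.extend_apply' _ _ _ hj]
      exact le_rfl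
  · rw [← hsum]
    symm
    apply Fintype.sum_of_injective f f.injective
    · intro j hj
      rw [Function.extend_apply' _ _ _ (by simpa using hj)]
      rfl
    · intro i
      rw [f.injective.extend_apply]
  · intro j
    by_cases hj : ∃ i, f i = j
    · obtain ⟨i, rfl⟩ := hj
      rw [f.injective.extend_apply]
      exact hw ⟨i, rfl⟩
    · rw [Function.extend_apply' _ _ _ hj]
      exact hw ⟨i₀, rfl⟩
  · rw [← hcomb]
    symm
    apply Fintype.sum_of_injective f f.injective
    · intro j hj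
      rw [Function.extend_apply' c (0 : Fin (Module.finrank ℝ V + 1) → ℝ) j (by simpa using hj)]
      exact zero_smul ℝ _
    · intro i
      rw [f.injective.extend_apply, f.injective.extend_apply]

lemma isCompact_hull {S : Set V} (hS : IsCompact S) : IsCompact (convexHull ℝ S) := by
  classical
  set n := Module.finrank ℝ V + 1 with hn
  have hc : IsCompact ((stdSimplex ℝ (Fin n)) ×ˢ (Set.pi univ (fun _ : Fin n => S))) :=
    (isCompact_stdSimplex ℝ (Fin n)).prod (isCompact_univ_pi fun _ => hS)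
  have hcont : Continuous (fun p : (Fin n → ℝ) × (Fin n → V) => ∑ j, p.1 j • p.2 j) := by
    fun_prop
  have himg := hc.image hcont
  have heq : convexHull ℝ S = (fun p : (Fin n → ℝ) × (Fin n → V) =>
      ∑ j, p.1 j • p.2 j) '' ((stdSimplex ℝ (Fin n)) ×ˢ
      (Set.pi univ (fun _ : Fin n => S))) := by
    apply Set.Subset.antisymm
    · intro u hu
      obtain ⟨lam, w, h0, h1, hw, hsum⟩ := exists_rep hu
      exact ⟨(lam, w), ⟨⟨h0, h1⟩, fun j _ => hw j⟩, hsum⟩
    · rintro _ ⟨⟨lam, w⟩, ⟨⟨h0, h1⟩, hw⟩, rfl⟩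
      exact (convex_convexHull ℝ _).sum_mem (fun j _ => h0 j) h1
        (fun j _ => subset_convexHull ℝ _ (hw j (mem_univ _)))
  rw [heq]
  exact himg

end hull

section cconvex

variable {M : Type*} [MetricSpace M]

lemma continuous_cost_left (y : M) : Continuous (fun x : M => cost x y) := by
  unfold cost
  fun_prop

lemma tendsto_cost {ι : Type*} {l : Filter ι} {x y : ι → M} {x₀ y₀ : M} (hx : Tendsto x l (𝓝 x₀))
    (hy : Tendsto y l (𝓝 y₀)) : Tendsto (fun k => cost (x k) (y k)) l (𝓝 (cost x₀ y₀)) := by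
  unfold cost
  exact ((hx.dist hy).pow 2).div_const 2

lemma cost_sub_cost_le [CompactSpace M] (x x' y : M) :
    cost x' y - cost x y ≤ Metric.diam (univ : Set M) * dist x x' := by
  have h2 := dist_le_diam_univ x y
  have h3 := dist_le_diam_univ x' y
  have h4 : dist x' y ≤ dist x x' + dist x y := by
    have := dist_triangle x' x y
    rwa [dist_comm x' x] at this
  have h5 : 0 ≤ dist x y := dist_nonneg
  have h6 : 0 ≤ dist x' y := dist_nonneg
  have h7 : 0 ≤ dist x x' := dist_nonneg
  rw [cost, cost]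
  linarith only [mul_nonneg (sub_nonneg.mpr h4) (add_nonneg h5 h6),
    mul_nonneg h7 (sub_nonneg.mpr h3), mul_nonneg h7 (sub_nonneg.mpr h2)]

lemma CConvex.lipschitz [CompactSpace M] {ψ : M → ℝ} (h : CConvex ψ) (x x' : M) :
    ψ x - ψ x' ≤ Metric.diam (univ : Set M) * dist x x' := by
  obtain ⟨S, hS⟩ := h
  have h1 : ψ x ≤ ψ x' + Metric.diam (univ : Set M) * dist x x' := by
    refine (hS x).2 ?_
    rintro _ ⟨p, hp, rfl⟩
    have h2 := (hS x').1 ⟨p, hp, rfl⟩
    have h3 := cost_sub_cost_le x x' p.2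
    simp only at h2 ⊢
    linarith only [h2, h3]
  linarith only [h1]

lemma CConvex.continuous [CompactSpace M] {ψ : M → ℝ} (h : CConvex ψ) : Continuous ψ := by
  have : LipschitzWith (Real.toNNReal (Metric.diam (univ : Set M))) ψ := by
    apply LipschitzWith.of_dist_le_mul
    intro x x'
    rw [Real.dist_eq, Real.coe_toNNReal _ Metric.diam_nonneg, abs_le]
    constructor
    · have := CConvex.lipschitz h x' x
      rw [dist_comm] at this
      linarith only [this]
    · exact CConvex.lipschitz h x x'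
  exact this.continuous

/-- The supremum is attained: the `c`-subdifferential is nonempty. -/
lemma CConvex.nonempty [CompactSpace M] {ψ : M → ℝ} (h : CConvex ψ) (x : M) :
    (cSubdiff ψ x).Nonempty := by
  obtain ⟨S, hS⟩ := h
  have h1 : ∀ k : ℕ, ∃ p ∈ S, ψ x - 1 / ((k : ℝ) + 1) < p.1 - cost x p.2 := by
    intro k
    have h2 : ψ x - 1 / ((k : ℝ) + 1) < ψ x := by
      have : 0 < 1 / ((k : ℝ) + 1) := by positivity
      linarith only [this]
    obtain ⟨_, ⟨p, hp, rfl⟩, h3⟩ := (lt_isLUB_iff (hS x)).1 h2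
    exact ⟨p, hp, h3⟩
  choose p hp hlt using h1
  obtain ⟨y, -, φ, hφ, hy⟩ := isCompact_univ.tendsto_subseq (x := fun k => (p k).2)
    fun k => mem_univ _
  refine ⟨y, fun x' => ?_⟩
  have h4 : Tendsto (fun k => ψ x - 1 / (((φ k : ℕ) : ℝ) + 1) + cost x (p (φ k)).2 -
      cost x' (p (φ k)).2) atTop (𝓝 (ψ x - 0 + cost x y - cost x' y)) := by
    refine Tendsto.sub (Tendsto.add (tendsto_const_nhds.sub ?_) ?_) ?_
    · exact (tendsto_one_div_add_atTop_nhds_zero_nat (𝕜 := ℝ)).comp hφ.tendsto_atTop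
    · exact tendsto_cost tendsto_const_nhds hy
    · exact tendsto_cost tendsto_const_nhds hy
  rw [sub_zero] at h4
  refine le_of_tendsto h4 (Eventually.of_forall fun k => ?_)
  have h5 := hlt (φ k)
  have h6 := (hS x').1 ⟨p (φ k), hp (φ k), rfl⟩
  simp only at h6 ⊢
  linarith only [h5, h6]

lemma CConvex.closed [CompactSpace M] {ψ : M → ℝ} (h : CConvex ψ) {x y : ℕ → M} {x₀ y₀ : M}
    (hx : Tendsto x atTop (𝓝 x₀)) (hy : Tendsto y atTop (𝓝 y₀))
    (hk : ∀ k, y k ∈ cSubdiff ψ (x k)) : y₀ ∈ cSubdiff ψ x₀ := by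
  intro x'
  have h1 : Tendsto (fun k => ψ (x k) + cost (x k) (y k) - cost x' (y k)) atTop
      (𝓝 (ψ x₀ + cost x₀ y₀ - cost x' y₀)) :=
    (((CConvex.continuous h).tendsto x₀).comp hx |>.add (tendsto_cost hx hy)).sub
      (tendsto_cost tendsto_const_nhds hy)
  exact le_of_tendsto h1 (Eventually.of_forall fun k => hk k x')

/-- The maximum of two mountains. -/
def two2 (a b : ℝ) (y z : M) (x : M) : ℝ := max (a - cost x y) (b - cost x z)

lemma cconvex_two2 (a b : ℝ) (y z : M) : CConvex (two2 a b y z) := by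
  refine ⟨{(a, y), (b, z)}, fun x => ?_⟩
  rw [image_pair]
  exact isLUB_pair

/-- A selection of supporting points with closed graph. -/
structure Supp (ψ : M → ℝ) (K : M → Set M) : Prop where
  nonempty : ∀ x, (K x).Nonempty
  closed : ∀ (x y : ℕ → M) (x₀ y₀ : M), Tendsto x atTop (𝓝 x₀) → Tendsto y atTop (𝓝 y₀) →
    (∀ k, y k ∈ K (x k)) → y₀ ∈ K x₀
  sub : ∀ x, K x ⊆ cSubdiff ψ x

lemma CConvex.supp [CompactSpace M] {ψ : M → ℝ} (h : CConvex ψ) : Supp ψ (cSubdiff ψ) where
  nonempty := CConvex.nonempty h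
  closed _ _ _ _ hx hy hk := CConvex.closed h hx hy hk
  sub _ := Subset.rfl

lemma supp_two2 [CompactSpace M] (a b : ℝ) (y z : M) :
    Supp (two2 a b y z) (fun x => cSubdiff (two2 a b y z) x ∩ {y, z}) where
  nonempty x := by
    rcases le_total (a - cost x y) (b - cost x z) with h | h
    · refine ⟨z, fun x' => ?_, by simp⟩
      have h1 : two2 a b y z x = b - cost x z := max_eq_right h
      have h2 : b - cost x' z ≤ two2 a b y z x' := le_max_right _ _
      rw [h1]
      linarith only [h2]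
    · refine ⟨y, fun x' => ?_, by simp⟩
      have h1 : two2 a b y z x = a - cost x y := max_eq_left h
      have h2 : a - cost x' y ≤ two2 a b y z x' := le_max_left _ _
      rw [h1]
      linarith only [h2]
  closed x' y' x₀ y₀ hx hy hk := by
    refine ⟨CConvex.closed (cconvex_two2 a b y z) hx hy fun k => (hk k).1, ?_⟩
    have : IsClosed ({y, z} : Set M) := (Set.toFinite _).isClosed
    exact this.mem_of_tendsto hy (Eventually.of_forall fun k => (hk k).2)
  sub x := inter_subset_left

end cconvex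

end

end Vale.Agent.P234.Reg
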