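import Vale.Agent.P234.H936.A

set_option maxSynthPendingDepth 3
set_option linter.all false

open Bundle Manifold Set Filter
open scoped ContDiff Manifold Topology

namespace Vale.Agent.P234.Reg

noncomputable section

variable {E : Type*} [NormedAddCommGroup E] [NormedSpace ℝ E] [FiniteDimensional ℝ E]
  {M : Type*} [MetricSpace M] [ChartedSpace E M]
  [RiemannianBundle (fun x : M => TangentSpace 𝓘(ℝ, E) x)]
  [IsManifold 𝓘(ℝ, E) ∞ M]
  [IsContMDiffRiemannianBundle 𝓘(ℝ, E) ∞ E (fun x : M => TangentSpace 𝓘(ℝ, E) x)]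
  [CompactSpace M]
  {e : ∀ x : M, TangentSpace 𝓘(ℝ, E) x → M}

set_option backward.isDefEq.respectTransparency false in
/-- Minimizing vectors towards locally supporting points are subgradients. -/
lemma mem_subgrad_local (F : Facts e) {ψ : M → ℝ} {x : M} {w : TangentSpace 𝓘(ℝ, E) x}
    (hw : w ∈ segMin e x)
    (hy : ∀ᶠ x' in 𝓝 x, ψ x + cost x (e x w) - cost x' (e x w) ≤ ψ x') :
    w ∈ subgrad e ψ x := by
  have he := F.isExp
  set v' : TangentSpace 𝓘(ℝ, E) x := (1 / 2 : ℝ) • w with hv'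
  have hv'i : v' ∈ injDomain e x := smul_mem_injDomain he hw (by norm_num) (by norm_num)
  have hv's : v' ∈ segMin e x := injDomain_subset_segMin he x hv'i
  have hsm : SmoothAt E x (e x v') := F.smooth_cost x v' hv'i
  set m := e x v' with hm
  have hx0 : e x (0 : TangentSpace 𝓘(ℝ, E) x) = x := he.map_zero x
  have hder := hasFDerivAt_cost_zero he x v' hv's hsm
  have h2 : cost x (e x w) = ‖w‖ ^ 2 / 2 := cost_of_segMin hw
  have h3 : cost x m = ‖w‖ ^ 2 / 8 := by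
    have := segMin_cost he hw (s := 0) (t := 1 / 2) le_rfl (by norm_num) (by norm_num)
    rw [zero_smul, hx0] at this
    rw [hm, hv', this]; ring
  have h4 : cost m (e x w) = ‖w‖ ^ 2 / 8 := by
    have := segMin_cost he hw (s := 1 / 2) (t := 1) (by norm_num) (by norm_num) le_rfl
    rw [one_smul] at this
    rw [hm, hv', this]; ring
  have hxlim : Tendsto (e x) (𝓝 0) (𝓝 x) := by
    have h := (contMDiff_exp_fiber he x).continuous.tendsto 0
    rwa [hx0] at h
  intro ε hε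
  have hlo := hder.isLittleO.def (c := ε / 2) (by positivity)
  filter_upwards [hlo, hxlim.eventually hy] with ξ hξ h8
  rw [sub_zero, hx0, Real.norm_eq_abs] at hξ
  have h5 : (-(innerSL ℝ v')) ξ = -(1 / 2 * inner ℝ w ξ) := by
    rw [neg_apply, innerSL_apply_apply, hv', real_inner_smul_left]
  rw [h5] at hξ
  have h6 := (abs_le.1 hξ).2
  have h7 := cost_ineq (e x ξ) m (e x w) (s := 1 / 2) (t := 1 / 2) (by norm_num) (by norm_num)
  norm_num at h7
  rw [h2] at h8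
  rw [h4] at h7
  rw [h3] at h6
  linarith only [h6, h7, h8]

/-- Minimizing vectors towards supporting points are subgradients. -/
lemma mem_subgrad (F : Facts e) {ψ : M → ℝ} {x : M} {w : TangentSpace 𝓘(ℝ, E) x}
    (hw : w ∈ segMin e x) (hy : e x w ∈ cSubdiff ψ x) : w ∈ subgrad e ψ x :=
  mem_subgrad_local F hw (Eventually.of_forall hy)

/-- The subdifferential is convex. -/
lemma convex_subgrad (ψ : M → ℝ) (x : M) : Convex ℝ (subgrad e ψ x) := by
  intro v hv w hw a b ha hb hab ε hε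
  filter_upwards [hv ε hε, hw ε hε] with ξ h1 h2
  rw [inner_add_left, real_inner_smul_left, real_inner_smul_left]
  have h3 := mul_le_mul_of_nonneg_left h1 ha
  have h4 := mul_le_mul_of_nonneg_left h2 hb
  have h5 : a * ψ (e x ξ) + b * ψ (e x ξ) = ψ (e x ξ) := by rw [← add_mul, hab, one_mul]
  have h6 : a * (ψ x + inner ℝ v ξ - ε * ‖ξ‖) + b * (ψ x + inner ℝ w ξ - ε * ‖ξ‖) =
      ψ x + (a * inner ℝ v ξ + b * inner ℝ w ξ) - ε * ‖ξ‖ := by
    have : b = 1 - a := by linarith only [hab]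
    subst this
    ring
  linarith only [h3, h4, h5, h6]

/-- Minimizing vectors towards the points of `K x`. -/
def Vx (e : ∀ x : M, TangentSpace 𝓘(ℝ, E) x → M) (K : M → Set M) (x : M) :
    Set (TangentSpace 𝓘(ℝ, E) x) :=
  {w | w ∈ segMin e x ∧ e x w ∈ K x}

lemma norm_le_of_mem_Vx {K : M → Set M} {x : M} {w : TangentSpace 𝓘(ℝ, E) x}
    (hw : w ∈ Vx e K x) : ‖w‖ ≤ Metric.diam (univ : Set M) := by
  have h : dist x (e x w) = ‖w‖ := hw.1
  rw [← h]
  exact dist_le_diam_univ _ _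

lemma Vx_closed (he : IsExp e) {ψ : M → ℝ} {K : M → Set M} (hK : Supp ψ K) {z : ℕ → M}
    {w : ∀ k, TangentSpace 𝓘(ℝ, E) (z k)} {z₀ : M} {w₀ : TangentSpace 𝓘(ℝ, E) z₀}
    (h : TendstoTB w w₀) (hw : ∀ k, w k ∈ Vx e K (z k)) : w₀ ∈ Vx e K z₀ :=
  ⟨h.segMin he (fun k => (hw k).1), hK.closed _ _ _ _ h.base (h.exp he) fun k => (hw k).2⟩

lemma isCompact_Vx (he : IsExp e) {ψ : M → ℝ} {K : M → Set M} (hK : Supp ψ K) (z : M) :
    IsCompact (Vx e K z) := by
  have : FiniteDimensional ℝ (TangentSpace 𝓘(ℝ, E) z) := inferInstanceAs (FiniteDimensional ℝ E)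
  have : ProperSpace (TangentSpace 𝓘(ℝ, E) z) := FiniteDimensional.proper ℝ _
  apply Metric.isCompact_of_isClosed_isBounded
  · apply IsSeqClosed.isClosed
    intro v v₀ hv hlim
    exact Vx_closed he hK (z := fun _ => z) (tendstoTB_const_base.mpr hlim) hv
  · refine (Metric.isBounded_closedBall (x := (0 : TangentSpace 𝓘(ℝ, E) z))
      (r := Metric.diam (univ : Set M))).subset ?_
    intro w hw
    rw [mem_closedBall_zero_iff]
    exact norm_le_of_mem_Vx hw

set_option backward.isDefEq.respectTransparency false in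
/-- Upper first variation of a supported function along a sequence. -/
lemma variation (F : Facts e) {ψ : M → ℝ} {K : M → Set M} (hK : Supp ψ K) {x₀ : M}
    (ξ : TangentSpace 𝓘(ℝ, E) x₀)
    {r : ℕ → ℝ} (hr : Tendsto r atTop (𝓝 0)) (hr0 : ∀ k, 0 < r k) :
    ∃ (φ : ℕ → ℕ) (u : ℕ → ℝ) (w₀ : TangentSpace 𝓘(ℝ, E) x₀), StrictMono φ ∧
      w₀ ∈ Vx e K x₀ ∧
      (∀ k, (ψ (e x₀ (r (φ k) • ξ)) - ψ x₀) / r (φ k) ≤ u k) ∧
      Tendsto u atTop (𝓝 (inner ℝ w₀ ξ)) := by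
  have he := F.isExp
  have hx0 : e x₀ (0 : TangentSpace 𝓘(ℝ, E) x₀) = x₀ := he.map_zero x₀
  -- the moving points
  have hexpc : Continuous (e x₀) := (contMDiff_exp_fiber he x₀).continuous
  have hxlim : Tendsto (fun k => e x₀ (r k • ξ)) atTop (𝓝 x₀) := by
    have h1 : Tendsto (fun k => r k • ξ) atTop (𝓝 ((0 : ℝ) • ξ)) := hr.smul_const ξ
    rw [zero_smul] at h1
    have h2 := (hexpc.tendsto 0).comp h1
    rwa [hx0] at h2
  -- supporting points and minimizing vectors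
  have hact : ∀ k, ∃ w : TangentSpace 𝓘(ℝ, E) (e x₀ (r k • ξ)), w ∈ Vx e K (e x₀ (r k • ξ)) := by
    intro k
    obtain ⟨y, hy⟩ := hK.nonempty (e x₀ (r k • ξ))
    obtain ⟨w, hw1, hw2⟩ := F.hopfRinow (e x₀ (r k • ξ)) y
    refine ⟨w, ?_, ?_⟩
    · show dist _ _ = _
      rw [hw1, hw2]
    · rw [hw1]; exact hy
  choose w hw using hact
  obtain ⟨z₀, w₀, φ, hφ, hlim⟩ := exists_tendstoTB (fun k => e x₀ (r k • ξ)) w
    (Metric.diam (univ : Set M)) (fun k => norm_le_of_mem_Vx (hw k))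
  have hz : z₀ = x₀ :=
    tendsto_nhds_unique hlim.base (hxlim.comp hφ.tendsto_atTop)
  subst hz
  have hw0 : w₀ ∈ Vx e K z₀ := Vx_closed he hK hlim (fun k => hw (φ k))
  -- half points
  have hhalf : TendstoTB (z := fun k => e z₀ (r (φ k) • ξ)) (fun k => (1 / 2 : ℝ) • w (φ k))
      ((1 / 2 : ℝ) • w₀) := hlim.smul tendsto_const_nhds
  have hq : Tendsto (fun k => e (e z₀ (r (φ k) • ξ)) ((1 / 2 : ℝ) • w (φ k))) atTop
      (𝓝 (e z₀ ((1 / 2 : ℝ) • w₀))) := hhalf.exp he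
  set q₀ : M := e z₀ ((1 / 2 : ℝ) • w₀) with hq0
  have hqi : (1 / 2 : ℝ) • w₀ ∈ injDomain e z₀ :=
    smul_mem_injDomain he hw0.1 (by norm_num) (by norm_num)
  have hqs : (1 / 2 : ℝ) • w₀ ∈ segMin e z₀ := injDomain_subset_segMin he z₀ hqi
  have hsm : SmoothAt E z₀ q₀ := F.smooth_cost z₀ _ hqi
  -- coordinates of the half points at `q₀`
  have hb : ∀ k, ∃ b : TangentSpace 𝓘(ℝ, E) q₀,
      e q₀ b = e (e z₀ (r (φ k) • ξ)) ((1 / 2 : ℝ) • w (φ k)) ∧
      dist q₀ (e (e z₀ (r (φ k) • ξ)) ((1 / 2 : ℝ) • w (φ k))) = ‖b‖ := fun k =>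
    F.hopfRinow q₀ _
  choose b hb1 hb2 using hb
  have hb0 : Tendsto b atTop (𝓝 0) := by
    rw [tendsto_zero_iff_norm_tendsto_zero]
    have h1 : Tendsto (fun k => dist q₀ (e (e z₀ (r (φ k) • ξ)) ((1 / 2 : ℝ) • w (φ k)))) atTop
        (𝓝 (dist q₀ q₀)) := tendsto_const_nhds.dist hq
    rw [dist_self] at h1
    exact h1.congr hb2
  have hq00 : e q₀ (0 : TangentSpace 𝓘(ℝ, E) q₀) = q₀ := he.map_zero q₀
  have hsm' : SmoothAt E (e z₀ (0 : TangentSpace 𝓘(ℝ, E) z₀))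
      (e q₀ (0 : TangentSpace 𝓘(ℝ, E) q₀)) := by
    rw [hx0, hq00]; exact hsm
  have hcd := SmoothAt.coord he hsm'
  set G : TangentSpace 𝓘(ℝ, E) z₀ × TangentSpace 𝓘(ℝ, E) q₀ → ℝ :=
    fun p => cost (e z₀ p.1) (e q₀ p.2) with hG
  have hstrict : HasStrictFDerivAt G (fderiv ℝ G (0, 0)) (0, 0) :=
    hcd.hasStrictFDerivAt (by simp)
  have hder := hasFDerivAt_cost_zero he z₀ ((1 / 2 : ℝ) • w₀) hqs hsm
  have hGξ : fderiv ℝ G (0, 0) (ξ, 0) = -(inner ℝ ((1 / 2 : ℝ) • w₀) ξ) := by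
    have h1 : HasFDerivAt (fun a : TangentSpace 𝓘(ℝ, E) z₀ =>
        (a, (0 : TangentSpace 𝓘(ℝ, E) q₀)))
        (ContinuousLinearMap.inl ℝ (TangentSpace 𝓘(ℝ, E) z₀) (TangentSpace 𝓘(ℝ, E) q₀)) 0 :=
      hasFDerivAt_prodMk_left 0 0
    have h2 : HasFDerivAt (fun a : TangentSpace 𝓘(ℝ, E) z₀ =>
        G (a, (0 : TangentSpace 𝓘(ℝ, E) q₀)))
        ((fderiv ℝ G (0, 0)).comp
          (ContinuousLinearMap.inl ℝ (TangentSpace 𝓘(ℝ, E) z₀) (TangentSpace 𝓘(ℝ, E) q₀))) 0 :=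
      HasFDerivAt.comp (g := G) (f := fun a : TangentSpace 𝓘(ℝ, E) z₀ =>
        (a, (0 : TangentSpace 𝓘(ℝ, E) q₀))) (0 : TangentSpace 𝓘(ℝ, E) z₀) hstrict.hasFDerivAt h1
    have h3 : (fun a : TangentSpace 𝓘(ℝ, E) z₀ => G (a, (0 : TangentSpace 𝓘(ℝ, E) q₀))) =
        fun a => cost (e z₀ a) (e z₀ ((1 / 2 : ℝ) • w₀)) := by
      funext a
      simp only [hG]
      rw [hq00]
    rw [h3] at h2
    have h4 := h2.unique hder
    have h5 := congrArg (fun L => L ξ) h4
    rw [real_inner_smul_left]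
    simpa using h5
  have hlim2 := tendsto_slope_of_strict hstrict (hr.comp hφ.tendsto_atTop)
    (fun k => hr0 (φ k)) (v := fun k => ((0 : TangentSpace 𝓘(ℝ, E) z₀), b k))
    (by
      rw [nhds_prod_eq]
      exact tendsto_const_nhds.prodMk hb0) (ξ, (0 : TangentSpace 𝓘(ℝ, E) q₀))
  refine ⟨φ, fun k => -2 * ((G ((0, b k) + r (φ k) • (ξ, (0 : TangentSpace 𝓘(ℝ, E) q₀))) -
    G (0, b k)) / r (φ k)), w₀, hφ, hw0, fun k => ?_, ?_⟩
  · have hGa : G ((0, b k) + r (φ k) • (ξ, (0 : TangentSpace 𝓘(ℝ, E) q₀))) =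
        cost (e z₀ (r (φ k) • ξ)) (e q₀ (b k)) := by
      simp only [hG, Prod.smul_mk, smul_zero, Prod.mk_add_mk, zero_add, add_zero]
    have hGb : G (0, b k) = cost z₀ (e q₀ (b k)) := by
      simp only [hG]
      rw [hx0]
    beta_reduce
    rw [hGa, hGb]
    set x := e z₀ (r (φ k) • ξ) with hx
    set q := e x ((1 / 2 : ℝ) • w (φ k)) with hqdef
    have hbq : e q₀ (b k) = q := hb1 k
    rw [hbq]
    obtain ⟨hwm, hwK⟩ := hw (φ k)
    have h1 := hK.sub _ hwK z₀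
    rw [← hx] at h1
    set Y := e x (w (φ k)) with hY
    have h2 := cost_ineq z₀ q Y (s := 1 / 2) (t := 1 / 2) (by norm_num) (by norm_num)
    have h3 : cost x Y = ‖w (φ k)‖ ^ 2 / 2 := cost_of_segMin hwm
    have h4 : cost x q = ‖w (φ k)‖ ^ 2 / 8 := by
      have := segMin_cost he hwm (s := 0) (t := 1 / 2) le_rfl (by norm_num) (by norm_num)
      rw [zero_smul, he.map_zero] at this
      rw [hqdef, this]; ring
    have h5 : cost q Y = ‖w (φ k)‖ ^ 2 / 8 := by
      have := segMin_cost he hwm (s := 1 / 2) (t := 1) (by norm_num) (by norm_num) le_rfl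
      rw [one_smul] at this
      rw [hqdef, hY, this]; ring
    rw [← mul_div_assoc]
    apply div_le_div_of_nonneg_right _ (hr0 (φ k)).le
    norm_num at h2
    linarith only [h2, h5, h4, h3, h1]
  · have h := hlim2.const_mul (-2)
    rw [hGξ, real_inner_smul_left] at h
    have h' : -2 * -(1 / 2 * inner ℝ w₀ ξ) = inner ℝ w₀ ξ := by ring
    rw [h'] at h
    exact h

set_option backward.isDefEq.respectTransparency false in
/-- Subgradients are convex combinations of minimizing vectors towards supporting points. -/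
theorem subgrad_subset_hull (F : Facts e) {ψ : M → ℝ} {K : M → Set M} (hK : Supp ψ K) {x₀ : M}
    {v : TangentSpace 𝓘(ℝ, E) x₀} (hv : v ∈ subgrad e ψ x₀) :
    v ∈ convexHull ℝ (Vx e K x₀) := by
  by_contra hnot
  have he := F.isExp
  have hx0 : e x₀ (0 : TangentSpace 𝓘(ℝ, E) x₀) = x₀ := he.map_zero x₀
  have : FiniteDimensional ℝ (TangentSpace 𝓘(ℝ, E) x₀) := inferInstanceAs (FiniteDimensional ℝ E)
  have : CompleteSpace (TangentSpace 𝓘(ℝ, E) x₀) := FiniteDimensional.complete ℝ _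
  obtain ⟨f, c, hf1, hf2⟩ := geometric_hahn_banach_closed_point (convex_convexHull ℝ _)
    (isCompact_hull (isCompact_Vx he hK x₀)).isClosed hnot
  set ξ : TangentSpace 𝓘(ℝ, E) x₀ := (InnerProductSpace.toDual ℝ _).symm f with hξ
  have hfξ : ∀ w, f w = inner ℝ w ξ := by
    intro w
    rw [real_inner_comm, hξ, InnerProductSpace.toDual_symm_apply]
  set r : ℕ → ℝ := fun k => 1 / ((k : ℝ) + 1) with hr
  have hr0 : ∀ k, 0 < r k := fun k => by (clear * -; positivity)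
  have hrlim : Tendsto r atTop (𝓝 0) := tendsto_one_div_add_atTop_nhds_zero_nat
  obtain ⟨φ, u, w₀, hφ, hw0, hu1, hu2⟩ := variation F hK ξ hrlim hr0
  have h1 := hf1 w₀ (subset_convexHull ℝ _ hw0)
  rw [hfξ] at h1 hf2
  -- pick `ε` small
  obtain ⟨ε, hε, hε1⟩ : ∃ ε : ℝ, 0 < ε ∧ ε * ‖ξ‖ < inner ℝ v ξ - inner ℝ w₀ ξ := by
    have hpos : 0 < inner ℝ v ξ - inner ℝ w₀ ξ := by linarith only [h1, hf2]
    have hn : 0 ≤ ‖ξ‖ := norm_nonneg ξ
    refine ⟨(inner ℝ v ξ - inner ℝ w₀ ξ) / (‖ξ‖ + 1), by positivity, ?_⟩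
    rw [div_mul_eq_mul_div, div_lt_iff₀ (by positivity)]
    nlinarith only [hpos, hn]
  have hev := hv ε hε
  have hξlim : Tendsto (fun k => r (φ k) • ξ) atTop (𝓝 (0 : TangentSpace 𝓘(ℝ, E) x₀)) := by
    have h1 : Tendsto (fun k => r (φ k) • ξ) atTop (𝓝 ((0 : ℝ) • ξ)) :=
      (hrlim.comp hφ.tendsto_atTop).smul_const ξ
    rwa [zero_smul] at h1
  have hev2 := hξlim.eventually hev
  have hge : inner ℝ v ξ - ε * ‖ξ‖ ≤ inner ℝ w₀ ξ := by
    refine ge_of_tendsto hu2 (hev2.mono fun k hk => ?_)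
    have hrk := hr0 (φ k)
    refine le_trans ?_ (hu1 k)
    rw [le_div_iff₀ hrk]
    rw [real_inner_smul_right, norm_smul, Real.norm_of_nonneg hrk.le] at hk
    linarith only [hk]
  linarith only [hge, hε1]

/-- A finite potential supporting a convex combination. -/
lemma exists_pot (he : IsExp e) {ψ : M → ℝ} {x : M} {v : TangentSpace 𝓘(ℝ, E) x}
    (hv : v ∈ convexHull ℝ (Vx e (cSubdiff ψ) x)) :
    ∃ P : Pot M, (∀ x', P.phi x' ≤ ψ x') ∧ P.phi x = ψ x ∧ v ∈ P.sub e x := by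
  have : FiniteDimensional ℝ (TangentSpace 𝓘(ℝ, E) x) := inferInstanceAs (FiniteDimensional ℝ E)
  obtain ⟨lam, w, h0, h1, hw, hcomb⟩ := exists_rep hv
  have hne : (Finset.univ : Finset (Fin (Module.finrank ℝ (TangentSpace 𝓘(ℝ, E) x) + 1))).Nonempty :=
    ⟨⟨0, by omega⟩, Finset.mem_univ _⟩
  let P : Pot M :=
    { N := Module.finrank ℝ (TangentSpace 𝓘(ℝ, E) x) + 1
      a := fun i => ψ x + cost x (e x (w i))
      y := fun i => e x (w i)
      phi := fun x' => Finset.univ.sup' hne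
        (fun i => ψ x + cost x (e x (w i)) - cost x' (e x (w i)))
      lower := fun i x' => Finset.le_sup'
        (fun i => ψ x + cost x (e x (w i)) - cost x' (e x (w i))) (Finset.mem_univ i)
      attained := fun x' => by
        obtain ⟨i, -, hi⟩ := Finset.exists_mem_eq_sup' hne
          (fun i => ψ x + cost x (e x (w i)) - cost x' (e x (w i)))
        exact ⟨i, hi⟩ }
  have hPx : P.phi x = ψ x := by
    obtain ⟨i, hi⟩ := P.attained x
    rw [hi]
    change ψ x + cost x (e x (w i)) - cost x (e x (w i)) = ψ x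
    ring
  refine ⟨P, fun x' => ?_, hPx, ?_⟩
  · obtain ⟨i, hi⟩ := P.attained x'
    rw [hi]
    change ψ x + cost x (e x (w i)) - cost x' (e x (w i)) ≤ ψ x'
    exact (hw i).2 x'
  · rw [← hcomb]
    refine (convex_convexHull ℝ _).sum_mem (fun j _ => h0 j) h1
      (fun j _ => subset_convexHull ℝ _ ?_)
    refine ⟨(hw j).1, j, rfl, ?_⟩
    rw [hPx]
    change ψ x = ψ x + cost x (e x (w j)) - cost x (e x (w j))
    ring

/-- Under weak MTW, the subdifferential consists of minimizing vectors towards global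
supporting points. -/
theorem subgrad_eq (F : Facts e) (hW : WeakMTW e) {ψ : M → ℝ} (hψ : CConvex ψ) (x : M) :
    subgrad e ψ x = {v | dist x (e x v) = ‖v‖ ∧ e x v ∈ cSubdiff ψ x} := by
  ext v
  constructor
  · intro hv
    have h1 := subgrad_subset_hull F (CConvex.supp hψ) hv
    obtain ⟨P, hP1, hP2, hP3⟩ := exists_pot F.isExp h1
    have hA := support_one F hW P
    have hm := Pot.A.segMin F.isExp one_pos hA hP3
    rw [one_smul] at hm
    refine ⟨hm, fun x' => ?_⟩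
    have h2 := hA x v hP3 x'
    rw [one_smul, one_mul, div_one, hP2] at h2
    rw [cost_of_segMin hm]
    linarith only [h2, hP1 x']
  · rintro ⟨h1, h2⟩
    exact mem_subgrad F h1 h2

end

end Vale.Agent.P234.Reg
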