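import Vale.Agent.P234.H936.B

set_option maxSynthPendingDepth 3
set_option linter.all false

open Bundle Manifold Set Filter
open scoped ContDiff Manifold Topology

namespace Vale.Agent.P234.Reg

noncomputable section

variable {E : Type*} [NormedAddCommGroup E] [NormedSpace ℝ E] [FiniteDimensional ℝ E]
  {M : Type*} [MetricSpace M] [ChartedSpace E M]
  [RiemannianBundle (fun x : M => TangentSpace 𝓘(ℝ, E) x)]
  [IsManifold 𝓘(ℝ, E) ∞ M]
  [IsContMDiffRiemannianBundle 𝓘(ℝ, E) ∞ E (fun x : M => TangentSpace 𝓘(ℝ, E) x)]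
  [CompactSpace M]
  {e : ∀ x : M, TangentSpace 𝓘(ℝ, E) x → M}

/-- The maximum principle from the description of subdifferentials. -/
lemma loeperMax_of (F : Facts e)
    (h : ∀ ψ : M → ℝ, CConvex ψ → ∀ x : M,
      subgrad e ψ x = {v | dist x (e x v) = ‖v‖ ∧ e x v ∈ cSubdiff ψ x}) :
    LoeperMax e := by
  intro x v w t hv hw ht0 ht1
  set ψ : M → ℝ := two2 (cost x (e x v)) (cost x (e x w)) (e x v) (e x w) with hψdef
  have hψ : CConvex ψ := cconvex_two2 _ _ _ _
  have hval : ∀ x', ψ x' = max (cost x (e x v) - cost x' (e x v))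
      (cost x (e x w) - cost x' (e x w)) := fun x' => rfl
  have hψx : ψ x = 0 := by rw [hval, sub_self, sub_self, max_self]
  have h1 : v ∈ subgrad e ψ x := mem_subgrad F hv (fun x' => by
    rw [hψx, zero_add, hval]
    exact le_max_left _ _)
  have h2 : w ∈ subgrad e ψ x := mem_subgrad F hw (fun x' => by
    rw [hψx, zero_add, hval]
    exact le_max_right _ _)
  have h3 : (1 - t) • v + t • w ∈ subgrad e ψ x :=
    convex_subgrad ψ x h1 h2 (sub_nonneg.2 ht1) ht0 (by ring)
  rw [h ψ hψ x] at h3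
  refine ⟨h3.1, fun x' => ?_⟩
  have h4 := h3.2 x'
  rw [hψx, zero_add, hval] at h4
  exact h4

/-- Connectedness of `c`-subdifferentials from the description of subdifferentials. -/
lemma connected_of (F : Facts e)
    (h : ∀ ψ : M → ℝ, CConvex ψ → ∀ x : M,
      subgrad e ψ x = {v | dist x (e x v) = ‖v‖ ∧ e x v ∈ cSubdiff ψ x})
    {ψ : M → ℝ} (hψ : CConvex ψ) (x : M) : IsConnected (cSubdiff ψ x) := by
  have h1 : cSubdiff ψ x = e x '' subgrad e ψ x := by
    rw [h ψ hψ x]
    ext y
    constructor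
    · intro hy
      obtain ⟨w, hw1, hw2⟩ := F.hopfRinow x y
      exact ⟨w, ⟨by rw [hw1, hw2], by rw [hw1]; exact hy⟩, hw1⟩
    · rintro ⟨v, hv, rfl⟩
      exact hv.2
  refine ⟨CConvex.nonempty hψ x, ?_⟩
  rw [h1]
  exact (convex_subgrad ψ x).isPreconnected.image _
    (contMDiff_exp_fiber F.isExp x).continuous.continuousOn

set_option backward.isDefEq.respectTransparency false in
/-- Failure of weak MTW gives a finite failure of concavity. -/
lemma exists_eps (F : Facts e) {x : M} {v ξ η : TangentSpace 𝓘(ℝ, E) x}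
    (hv : v ∈ injDomain e x) (hneg : mtw e x v ξ η < 0) :
    ∃ ε : ℝ, 0 < ε ∧ (∀ s : ℝ, |s| ≤ ε → v + s • η ∈ injDomain e x) ∧
      2 * costHess e x v ξ ξ < costHess e x (v + ε • η) ξ ξ + costHess e x (v + (-ε) • η) ξ ξ := by
  set f : ℝ → ℝ := fun t => costHess e x (v + t • η) ξ ξ with hf
  have hcont : Continuous (fun s : ℝ => v + s • η) :=
    continuous_const.add (continuous_id.smul continuous_const)
  have hopen : ∀ᶠ s in 𝓝 (0 : ℝ), v + s • η ∈ injDomain e x := by
    have h4 : injDomain e x ∈ 𝓝 (v + (0 : ℝ) • η) := by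
      rw [zero_smul, add_zero]
      exact (F.isOpen_injDomain x).mem_nhds hv
    exact (hcont.tendsto 0) h4
  have hsmooth : ContDiffAt ℝ 2 f 0 := by
    have h0 : v + (0 : ℝ) • η ∈ injDomain e x := hopen.self_of_nhds
    have h1 : ContDiffAt ℝ ∞ (costHess e x) (v + (0 : ℝ) • η) :=
      contDiffAt_costHess F.isExp (F.smooth_cost x _ h0)
    have h2 : ContDiffAt ℝ ∞ (fun t : ℝ => v + t • η) 0 := by
      apply ContDiffAt.add contDiffAt_const
      exact contDiffAt_id.smul contDiffAt_const
    have h3 : ContDiffAt ℝ ∞ (fun t : ℝ => costHess e x (v + t • η)) 0 :=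
      ContDiffAt.comp (g := costHess e x) 0 h1 h2
    exact ((h3.clm_apply contDiffAt_const).clm_apply contDiffAt_const).of_le base_two_le_infty
  have hH : 0 < hess f 0 1 1 := by
    unfold mtw at hneg
    have h1 : (fun s : ℝ => iteratedDeriv 2
        (fun r : ℝ => cost (e x (r • ξ)) (e x (v + s • η))) 0) =ᶠ[𝓝 0] f := by
      filter_upwards [hopen] with s hs
      rw [iteratedDeriv_cost_eq F.isExp (F.smooth_cost x _ hs)]
    rw [h1.iteratedDeriv_eq 2] at hneg
    have h2 := iteratedDeriv_two_line hsmooth 1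
    simp only [zero_add, smul_eq_mul, mul_one] at h2
    rw [h2] at hneg
    linarith only [hneg]
  obtain ⟨δ, hδ, ht⟩ := taylor2 hsmooth (ε := hess f 0 1 1 / 4) (by positivity)
  obtain ⟨δ', hδ', hin⟩ := Metric.eventually_nhds_iff.1 hopen
  refine ⟨min δ δ' / 2, by positivity, fun s hs => hin ?_, ?_⟩
  · rw [Real.dist_eq, sub_zero]
    have := min_le_right δ δ'
    have : 0 < min δ δ' := by positivity
    linarith
  · set ε := min δ δ' / 2 with hε
    have hε0 : 0 < ε := by positivity
    have hεδ : ε < δ := by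
      have := min_le_left δ δ'
      have : 0 < min δ δ' := by positivity
      linarith
    have e1 := ht 0 ε (by simpa using hδ) (by rwa [Real.norm_of_nonneg hε0.le])
    have e2 := ht 0 (-ε) (by simpa using hδ) (by rwa [norm_neg, Real.norm_of_nonneg hε0.le])
    have b1 : hess f 0 ε ε = ε ^ 2 * hess f 0 1 1 := by
      have : (ε : ℝ) = ε • (1 : ℝ) := by simp
      nth_rewrite 1 [this]
      nth_rewrite 2 [this]
      rw [map_smul, map_smul]
      simp only [smul_apply, smul_eq_mul]
      ring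
    have b2 : hess f 0 (-ε) (-ε) = ε ^ 2 * hess f 0 1 1 := by
      rw [map_neg, map_neg]
      simp only [neg_apply, neg_neg]
      exact b1
    have b3 : fderiv ℝ f 0 (-ε) = -(fderiv ℝ f 0 ε) := map_neg _ _
    rw [zero_add, Real.norm_of_nonneg hε0.le, b1] at e1
    rw [zero_add, norm_neg, Real.norm_of_nonneg hε0.le, b2, b3] at e2
    have e3 := (abs_le.1 e1).1
    have e4 := (abs_le.1 e2).1
    have e5 : 0 < ε ^ 2 * hess f 0 1 1 := by positivity
    have f0 : f 0 = costHess e x v ξ ξ := by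
      simp only [hf]
      rw [zero_smul, add_zero]
    have f1 : f ε = costHess e x (v + ε • η) ξ ξ := rfl
    have f2 : f (-ε) = costHess e x (v + (-ε) • η) ξ ξ := rfl
    rw [← f1, ← f2, ← f0]
    nlinarith only [e3, e4, e5]

end

end Vale.Agent.P234.Reg
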