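import Vale.Agent.P234.H936.C

set_option maxSynthPendingDepth 3
set_option linter.all false

open Bundle Manifold Set Filter
open scoped ContDiff Manifold Topology

namespace Vale.Agent.P234.Reg

noncomputable section

variable {E : Type*} [NormedAddCommGroup E] [NormedSpace ℝ E] [FiniteDimensional ℝ E]
  {M : Type*} [MetricSpace M] [ChartedSpace E M]
  [RiemannianBundle (fun x : M => TangentSpace 𝓘(ℝ, E) x)]
  [IsManifold 𝓘(ℝ, E) ∞ M]
  [IsContMDiffRiemannianBundle 𝓘(ℝ, E) ∞ E (fun x : M => TangentSpace 𝓘(ℝ, E) x)]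
  [CompactSpace M]
  {e : ∀ x : M, TangentSpace 𝓘(ℝ, E) x → M}

/-- Second order expansion along a parabola, abstract form. -/
lemma curve_taylor_aux {V : Type*} [NormedAddCommGroup V] [NormedSpace ℝ V] {f : V → ℝ}
    (hf : ContDiffAt ℝ 2 f 0) (ξ μ : V) :
    Tendsto (fun t : ℝ => (f (t • ξ + t ^ 2 • μ) - f 0 - fderiv ℝ f 0 (t • ξ + t ^ 2 • μ)) / t ^ 2)
      (𝓝[>] 0) (𝓝 (1 / 2 * hess f 0 ξ ξ)) := by
  set R : V → ℝ := fun h => f h - f 0 - fderiv ℝ f 0 h - 1 / 2 * hess f 0 h h with hR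
  have hRo : R =o[𝓝 0] fun h : V => ‖h‖ ^ 2 := by
    rw [Asymptotics.isLittleO_iff]
    intro c hc
    obtain ⟨δ, hδ, ht⟩ := taylor2 hf hc
    filter_upwards [Metric.ball_mem_nhds (0 : V) hδ] with h hh
    rw [mem_ball_zero_iff] at hh
    have h1 := ht 0 h (by simpa using hδ) hh
    rw [zero_add] at h1
    rw [Real.norm_eq_abs, Real.norm_of_nonneg (by positivity)]
    exact h1
  have hζc : Continuous (fun t : ℝ => t • ξ + t ^ 2 • μ) :=
    (continuous_id.smul continuous_const).add ((continuous_id.pow 2).smul continuous_const)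
  have hζ : Tendsto (fun t : ℝ => t • ξ + t ^ 2 • μ) (𝓝[>] 0) (𝓝 0) := by
    have h1 := hζc.tendsto 0
    simp only [zero_smul, ne_eq, OfNat.ofNat_ne_zero, not_false_eq_true, zero_pow, add_zero] at h1
    exact h1.mono_left nhdsWithin_le_nhds
  have hO : (fun t : ℝ => ‖t • ξ + t ^ 2 • μ‖ ^ 2) =O[𝓝[>] 0] fun t : ℝ => t ^ 2 := by
    refine Asymptotics.IsBigO.of_bound ((‖ξ‖ + ‖μ‖) ^ 2) ?_
    filter_upwards [Ioo_mem_nhdsGT (show (0 : ℝ) < 1 by norm_num)] with t ht
    have h0 : 0 < t := ht.1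
    have h1 : t < 1 := ht.2
    rw [Real.norm_of_nonneg (by positivity), Real.norm_of_nonneg (by positivity), ← mul_pow]
    refine pow_le_pow_left₀ (norm_nonneg _) ?_ 2
    refine (norm_add_le _ _).trans ?_
    rw [norm_smul, norm_smul, Real.norm_of_nonneg h0.le, Real.norm_of_nonneg (by positivity)]
    have h2 : t ^ 2 * ‖μ‖ ≤ t * ‖μ‖ := by
      apply mul_le_mul_of_nonneg_right _ (norm_nonneg μ)
      nlinarith only [h0, h1]
    linarith only [h2]
  have h1 : (fun t : ℝ => R (t • ξ + t ^ 2 • μ)) =o[𝓝[>] 0] fun t : ℝ => t ^ 2 :=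
    (hRo.comp_tendsto hζ).trans_isBigO hO
  have h2 := h1.tendsto_div_nhds_zero
  have h3 : Tendsto (fun t : ℝ => 1 / 2 * hess f 0 (ξ + t • μ) (ξ + t • μ)) (𝓝[>] 0)
      (𝓝 (1 / 2 * hess f 0 ξ ξ)) := by
    have hc : Continuous (fun t : ℝ => 1 / 2 * hess f 0 (ξ + t • μ) (ξ + t • μ)) := by
      have h4 : Continuous (fun t : ℝ => ξ + t • μ) :=
        continuous_const.add (continuous_id.smul continuous_const)
      exact continuous_const.mul (((hess f 0).continuous.comp h4).clm_apply h4)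
    have h5 := hc.tendsto 0
    simp only [zero_smul, add_zero] at h5
    exact h5.mono_left nhdsWithin_le_nhds
  have h4 := h2.add h3
  rw [zero_add] at h4
  refine h4.congr' ?_
  filter_upwards [self_mem_nhdsWithin] with t ht
  have ht0 : (t : ℝ) ≠ 0 := (show (0 : ℝ) < t from ht).ne'
  have h5 : t • ξ + t ^ 2 • μ = t • (ξ + t • μ) := by
    rw [smul_add, smul_smul, pow_two]
  have h6 : hess f 0 (t • ξ + t ^ 2 • μ) (t • ξ + t ^ 2 • μ) =
      t ^ 2 * hess f 0 (ξ + t • μ) (ξ + t • μ) := by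
    rw [h5, map_smul, map_smul]
    simp only [smul_apply, smul_eq_mul]
    ring
  simp only [hR]
  rw [h6]
  field_simp
  ring

set_option backward.isDefEq.respectTransparency false in
lemma curve_taylor (F : Facts e) {x : M} {a : TangentSpace 𝓘(ℝ, E) x} (ha : a ∈ injDomain e x)
    (ξ μ : TangentSpace 𝓘(ℝ, E) x) :
    Tendsto (fun t : ℝ => (cost (e x (t • ξ + t ^ 2 • μ)) (e x a) - cost x (e x a) +
      inner ℝ a (t • ξ + t ^ 2 • μ)) / t ^ 2) (𝓝[>] 0) (𝓝 (1 / 2 * costHess e x a ξ ξ)) := by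
  have he := F.isExp
  have hs := F.smooth_cost x a ha
  have h1 := curve_taylor_aux ((contDiffAt_fst0 he hs).of_le base_two_le_infty) ξ μ
  rw [(hasFDerivAt_cost_zero he x a (injDomain_subset_segMin he x ha) hs).fderiv] at h1
  refine h1.congr fun t => ?_
  rw [he.map_zero]
  simp only [neg_apply, innerSL_apply_apply, sub_neg_eq_add]

set_option backward.isDefEq.respectTransparency false in
/-- Two-sided failure of the maximum principle. -/
lemma exists_zeta (F : Facts e) {x : M} {v ξ η : TangentSpace 𝓘(ℝ, E) x} {ε : ℝ} (hε : 0 < ε)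
    (hv : v ∈ injDomain e x) (hp : v + ε • η ∈ injDomain e x)
    (hm : v + (-ε) • η ∈ injDomain e x) (hperp : inner ℝ ξ η = 0)
    (hlt : 2 * costHess e x v ξ ξ <
      costHess e x (v + ε • η) ξ ξ + costHess e x (v + (-ε) • η) ξ ξ) :
    η ≠ 0 ∧ ∃ x' : M,
      cost x (e x (v + ε • η)) - cost x' (e x (v + ε • η)) < cost x (e x v) - cost x' (e x v) ∧
      cost x (e x (v + (-ε) • η)) - cost x' (e x (v + (-ε) • η)) <
        cost x (e x v) - cost x' (e x v) := by
  have hη : η ≠ 0 := by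
    rintro rfl
    rw [smul_zero, smul_zero, add_zero] at hlt
    linarith only [hlt]
  refine ⟨hη, ?_⟩
  have hηn : 0 < ‖η‖ ^ 2 := by
    have := norm_pos_iff.2 hη
    positivity
  set H0 := costHess e x v ξ ξ with hH0
  set Hp := costHess e x (v + ε • η) ξ ξ with hHp
  set Hm := costHess e x (v + (-ε) • η) ξ ξ with hHm
  set θ : ℝ := (Hp - Hm) / (4 * ε * ‖η‖ ^ 2) with hθ
  have hθe : ε * (θ * ‖η‖ ^ 2) = (Hp - Hm) / 4 := by
    rw [hθ]
    field_simp
  have hinner : ∀ t : ℝ, inner ℝ η (t • ξ + t ^ 2 • (θ • η)) = t ^ 2 * (θ * ‖η‖ ^ 2) := by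
    intro t
    rw [inner_add_right, real_inner_smul_right, real_inner_smul_right, real_inner_smul_right,
      real_inner_comm, hperp, real_inner_self_eq_norm_sq]
    ring
  have T0 := curve_taylor F hv ξ (θ • η)
  have Tp := curve_taylor F hp ξ (θ • η)
  have Tm := curve_taylor F hm ξ (θ • η)
  have Dp := (Tp.sub T0).sub_const (ε * (θ * ‖η‖ ^ 2))
  have Dm := (Tm.sub T0).add_const (ε * (θ * ‖η‖ ^ 2))
  have pp : 0 < 1 / 2 * Hp - 1 / 2 * H0 - ε * (θ * ‖η‖ ^ 2) := by
    rw [hθe]; linarith only [hlt]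
  have pm : 0 < 1 / 2 * Hm - 1 / 2 * H0 + ε * (θ * ‖η‖ ^ 2) := by
    rw [hθe]; linarith only [hlt]
  have E1 := Dp.eventually (lt_mem_nhds pp)
  have E2 := Dm.eventually (lt_mem_nhds pm)
  obtain ⟨t, ht1, ht2, ht0⟩ := (E1.and (E2.and self_mem_nhdsWithin)).exists
  have ht0 : (0 : ℝ) < t := ht0
  refine ⟨e x (t • ξ + t ^ 2 • (θ • η)), ?_, ?_⟩
  · rw [inner_add_left, real_inner_smul_left, hinner] at ht1
    have h1 : 0 < t ^ 2 := by positivity
    have h2 := mul_pos h1 ht1
    have h3 : t ^ 2 * ((cost (e x (t • ξ + t ^ 2 • θ • η)) (e x (v + ε • η)) -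
        cost x (e x (v + ε • η)) + (inner ℝ v (t • ξ + t ^ 2 • θ • η) +
        ε * (t ^ 2 * (θ * ‖η‖ ^ 2)))) / t ^ 2 -
        (cost (e x (t • ξ + t ^ 2 • θ • η)) (e x v) - cost x (e x v) +
        inner ℝ v (t • ξ + t ^ 2 • θ • η)) / t ^ 2 - ε * (θ * ‖η‖ ^ 2)) =
        (cost x (e x v) - cost (e x (t • ξ + t ^ 2 • θ • η)) (e x v)) -
        (cost x (e x (v + ε • η)) - cost (e x (t • ξ + t ^ 2 • θ • η)) (e x (v + ε • η))) := by
      field_simp
      ring
    rw [h3] at h2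
    linarith only [h2]
  · rw [inner_add_left, real_inner_smul_left, hinner] at ht2
    have h1 : 0 < t ^ 2 := by positivity
    have h2 := mul_pos h1 ht2
    have h3 : t ^ 2 * ((cost (e x (t • ξ + t ^ 2 • θ • η)) (e x (v + (-ε) • η)) -
        cost x (e x (v + (-ε) • η)) + (inner ℝ v (t • ξ + t ^ 2 • θ • η) +
        (-ε) * (t ^ 2 * (θ * ‖η‖ ^ 2)))) / t ^ 2 -
        (cost (e x (t • ξ + t ^ 2 • θ • η)) (e x v) - cost x (e x v) +
        inner ℝ v (t • ξ + t ^ 2 • θ • η)) / t ^ 2 + ε * (θ * ‖η‖ ^ 2)) =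
        (cost x (e x v) - cost (e x (t • ξ + t ^ 2 • θ • η)) (e x v)) -
        (cost x (e x (v + (-ε) • η)) -
          cost (e x (t • ξ + t ^ 2 • θ • η)) (e x (v + (-ε) • η))) := by
      field_simp
      ring
    rw [h3] at h2
    linarith only [h2]

/-- The maximum principle implies weak MTW. -/
theorem weakMTW_of_max (F : Facts e) (h : LoeperMax e) : WeakMTW e := by
  intro x v hv ξ η hperp
  by_contra hneg
  rw [not_le] at hneg
  obtain ⟨ε, hε, hin, hlt⟩ := exists_eps F hv hneg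
  have hp : v + ε • η ∈ injDomain e x := hin ε (by rw [abs_of_pos hε])
  have hm : v + (-ε) • η ∈ injDomain e x := hin (-ε) (by rw [abs_neg, abs_of_pos hε])
  obtain ⟨hη, x', h1, h2⟩ := exists_zeta F hε hv hp hm hperp hlt
  have h3 := (h x (v + ε • η) (v + (-ε) • η) (1 / 2) (injDomain_subset_segMin F.isExp x hp)
    (injDomain_subset_segMin F.isExp x hm) (by norm_num) (by norm_num)).2 x'
  have h4 : (1 - 1 / 2 : ℝ) • (v + ε • η) + (1 / 2 : ℝ) • (v + (-ε) • η) = v := by
    rw [neg_smul]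
    module
  rw [h4] at h3
  rcases le_max_iff.1 h3 with h5 | h5
  · exact absurd h1 (not_lt.2 h5)
  · exact absurd h2 (not_lt.2 h5)

/-- Connectedness of the `c`-subdifferentials of maxima of two mountains implies weak MTW. -/
theorem weakMTW_of_connected (F : Facts e)
    (h : ∀ (a b : ℝ) (y z x : M), IsConnected (cSubdiff (two2 a b y z) x)) : WeakMTW e := by
  intro x v hv ξ η hperp
  by_contra hneg
  rw [not_le] at hneg
  obtain ⟨ε, hε, hin, hlt⟩ := exists_eps F hv hneg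
  have he := F.isExp
  have hp : v + ε • η ∈ injDomain e x := hin ε (by rw [abs_of_pos hε])
  have hm : v + (-ε) • η ∈ injDomain e x := hin (-ε) (by rw [abs_neg, abs_of_pos hε])
  obtain ⟨hη, x', h1, h2⟩ := exists_zeta F hε hv hp hm hperp hlt
  set yp := e x (v + ε • η) with hyp
  set ym := e x (v + (-ε) • η) with hym
  set ψ : M → ℝ := two2 (cost x yp) (cost x ym) yp ym with hψdef
  have hψ : CConvex ψ := cconvex_two2 _ _ _ _
  have hval : ∀ x', ψ x' = max (cost x yp - cost x' yp) (cost x ym - cost x' ym) := fun x' => rfl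
  have hψx : ψ x = 0 := by rw [hval, sub_self, sub_self, max_self]
  have hyp' : yp ∈ cSubdiff ψ x := fun x'' => by
    rw [hψx, zero_add, hval]
    exact le_max_left _ _
  have hym' : ym ∈ cSubdiff ψ x := fun x'' => by
    rw [hψx, zero_add, hval]
    exact le_max_right _ _
  have hv' : e x v ∉ cSubdiff ψ x := by
    intro hc
    have h3 := hc x'
    rw [hψx, zero_add, hval] at h3
    rcases le_max_iff.1 h3 with h5 | h5
    · exact absurd h1 (not_lt.2 h5)
    · exact absurd h2 (not_lt.2 h5)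
  -- the `c`-subdifferential lies on the curve
  have hsub : ∀ y ∈ cSubdiff ψ x, ∃ s : ℝ, |s| ≤ ε ∧ y = e x (v + s • η) := by
    intro y hy
    obtain ⟨w, hw1, hw2⟩ := F.hopfRinow x y
    have hwm : w ∈ segMin e x := by
      change dist x (e x w) = ‖w‖
      rw [hw1, hw2]
    have hws : w ∈ subgrad e ψ x := mem_subgrad F hwm (by rw [hw1]; exact hy)
    have h3 := subgrad_subset_hull F (supp_two2 (cost x yp) (cost x ym) yp ym) hws
    have h4 : Vx e (fun x => cSubdiff (two2 (cost x yp) (cost x ym) yp ym) x ∩ {yp, ym}) x ⊆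
        {v + ε • η, v + (-ε) • η} := by
      rintro w' ⟨hw'm, -, hw'y⟩
      rcases hw'y with h5 | h5
      · exact Or.inl (F.injDomain_unique hp hw'm h5)
      · exact Or.inr (F.injDomain_unique hm hw'm h5)
    have h5 : w ∈ convexHull ℝ {v + ε • η, v + (-ε) • η} := convexHull_mono h4 h3
    rw [convexHull_pair] at h5
    obtain ⟨a, b, ha, hb, hab, rfl⟩ := h5
    refine ⟨a * ε - b * ε, ?_, ?_⟩
    · rw [← sub_mul, abs_mul, abs_of_pos hε]
      have : |a - b| ≤ 1 := by
        rw [abs_le]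
        constructor <;> linarith
      nlinarith only [this, hε]
    · rw [← hw1]
      congr 1
      have hb' : b = 1 - a := by linarith only [hab]
      subst hb'
      module
  -- disconnect
  have hcurve : Continuous (fun s : ℝ => e x (v + s • η)) :=
    (contMDiff_exp_fiber he x).continuous.comp
      (continuous_const.add (continuous_id.smul continuous_const))
  have hA : IsClosed ((fun s : ℝ => e x (v + s • η)) '' Icc (-ε) 0) :=
    (isCompact_Icc.image hcurve).isClosed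
  have hB : IsClosed ((fun s : ℝ => e x (v + s • η)) '' Icc 0 ε) :=
    (isCompact_Icc.image hcurve).isClosed
  have hpre := isPreconnected_closed_iff.1 (h _ _ _ _ x).isPreconnected _ _ hA hB (by
    intro y hy
    obtain ⟨s, hs, rfl⟩ := hsub y hy
    rw [abs_le] at hs
    rcases le_total s 0 with h0 | h0
    · exact Or.inl ⟨s, ⟨hs.1, h0⟩, rfl⟩
    · exact Or.inr ⟨s, ⟨h0, hs.2⟩, rfl⟩)
    ⟨ym, hym', -ε, ⟨le_rfl, by linarith⟩, rfl⟩ ⟨yp, hyp', ε, ⟨hε.le, le_rfl⟩, rfl⟩
  obtain ⟨y, hy, ⟨s, hs, hsy⟩, ⟨s', hs', hs'y⟩⟩ := hpre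
  simp only at hsy hs'y
  have hsi : v + s • η ∈ injDomain e x := hin s (abs_le.2 ⟨hs.1, hs.2.trans hε.le⟩)
  have hs'i : v + s' • η ∈ injDomain e x :=
    hin s' (abs_le.2 ⟨by linarith [hs'.1], hs'.2⟩)
  have heq := F.injDomain_unique hsi (injDomain_subset_segMin he x hs'i) (hs'y.trans hsy.symm)
  have h6 : (s' - s) • η = 0 := by
    rw [sub_smul, sub_eq_zero]
    exact add_left_cancel heq
  rcases smul_eq_zero.1 h6 with h7 | h7
  · have h8 : s = 0 := le_antisymm hs.2 (by linarith [hs'.1])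
    rw [h8, zero_smul, add_zero] at hsy
    rw [← hsy] at hy
    exact hv' hy
  · exact hη h7

end

end Vale.Agent.P234.Reg
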