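import Vale.Agent.P234.H936.D

set_option maxSynthPendingDepth 3
set_option linter.all false

open Bundle Manifold Set Filter
open scoped ContDiff Manifold Topology

namespace Vale.Agent.P234.Reg

noncomputable section

section aux

variable {V : Type*} [NormedAddCommGroup V] [InnerProductSpace ℝ V]

/-- If `0` is interior to the convex hull of a finite set then some element of the set has a large
component in any prescribed direction. -/
lemma exists_large {ι : Type*} {B : ι → V} {c : ℝ} (hc : 0 < c)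
    (hB : Metric.ball (0 : V) c ⊆ convexHull ℝ (range B)) (hne : Nonempty ι) (ζ : V) :
    ∃ j, c / 2 * ‖ζ‖ ≤ inner ℝ (B j) ζ := by
  by_contra hcon
  push Not at hcon
  rcases eq_or_ne ζ 0 with rfl | hζ
  · obtain ⟨j⟩ := hne
    have := hcon j
    simp at this
  have hn : 0 < ‖ζ‖ := norm_pos_iff.2 hζ
  have hp : (c / 2 / ‖ζ‖) • ζ ∈ convexHull ℝ (range B) := by
    apply hB
    rw [mem_ball_zero_iff, norm_smul, Real.norm_of_nonneg (by positivity),
      div_mul_cancel₀ _ hn.ne']
    linarith only [hc]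
  have hhalf : convexHull ℝ (range B) ⊆ {p : V | inner ℝ p ζ < c / 2 * ‖ζ‖} := by
    apply convexHull_min
    · rintro _ ⟨j, rfl⟩
      exact hcon j
    · intro p hp q hq a b ha hb hab
      change inner ℝ (a • p + b • q) ζ < c / 2 * ‖ζ‖
      rw [inner_add_left, real_inner_smul_left, real_inner_smul_left]
      have hp' : inner ℝ p ζ < c / 2 * ‖ζ‖ := hp
      have hq' : inner ℝ q ζ < c / 2 * ‖ζ‖ := hq
      rcases eq_or_lt_of_le ha with rfl | ha'
      · rw [zero_add] at hab
        subst hab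
        linarith only [hq']
      · have h1 := mul_lt_mul_of_pos_left hp' ha'
        have h2 := mul_le_mul_of_nonneg_left hq'.le hb
        have h3 : a * (c / 2 * ‖ζ‖) + b * (c / 2 * ‖ζ‖) = c / 2 * ‖ζ‖ := by
          rw [← add_mul, hab, one_mul]
        linarith only [h1, h2, h3]
  have h1 : inner ℝ ((c / 2 / ‖ζ‖) • ζ) ζ < c / 2 * ‖ζ‖ := hhalf hp
  rw [real_inner_smul_left, real_inner_self_eq_norm_sq] at h1
  have h2 : c / 2 / ‖ζ‖ * ‖ζ‖ ^ 2 = c / 2 * ‖ζ‖ := by
    field_simp
  rw [h2] at h1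
  exact lt_irrefl _ h1

end aux

/-- The supremum of finitely many mountains. -/
def supm {M : Type*} [MetricSpace M] {ι : Type*} [Fintype ι] [Nonempty ι] (a : ι → ℝ) (y : ι → M)
    (z : M) : ℝ :=
  Finset.univ.sup' Finset.univ_nonempty (fun i => a i - cost z (y i))

lemma le_supm {M : Type*} [MetricSpace M] {ι : Type*} [Fintype ι] [Nonempty ι] (a : ι → ℝ)
    (y : ι → M) (z : M) (i : ι) : a i - cost z (y i) ≤ supm a y z :=
  Finset.le_sup' (fun i => a i - cost z (y i)) (Finset.mem_univ i)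

lemma exists_supm {M : Type*} [MetricSpace M] {ι : Type*} [Fintype ι] [Nonempty ι] (a : ι → ℝ)
    (y : ι → M) (z : M) : ∃ i, supm a y z = a i - cost z (y i) := by
  obtain ⟨i, -, hi⟩ := Finset.exists_mem_eq_sup' Finset.univ_nonempty
    (fun i => a i - cost z (y i))
  exact ⟨i, hi⟩

lemma cconvex_supm {M : Type*} [MetricSpace M] {ι : Type*} [Fintype ι] [Nonempty ι] (a : ι → ℝ)
    (y : ι → M) : CConvex (supm a y) := by
  refine ⟨range fun i => (a i, y i), fun z => ⟨?_, ?_⟩⟩
  · rintro _ ⟨_, ⟨i, rfl⟩, rfl⟩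
    exact le_supm a y z i
  · intro b hb
    exact Finset.sup'_le _ _ fun i _ => hb ⟨_, ⟨i, rfl⟩, rfl⟩

variable {E : Type*} [NormedAddCommGroup E] [NormedSpace ℝ E] [FiniteDimensional ℝ E]
  {M : Type*} [MetricSpace M] [ChartedSpace E M]
  [RiemannianBundle (fun x : M => TangentSpace 𝓘(ℝ, E) x)]
  [IsManifold 𝓘(ℝ, E) ∞ M]
  [IsContMDiffRiemannianBundle 𝓘(ℝ, E) ∞ E (fun x : M => TangentSpace 𝓘(ℝ, E) x)]
  [CompactSpace M]
  {e : ∀ x : M, TangentSpace 𝓘(ℝ, E) x → M}

set_option backward.isDefEq.respectTransparency false in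
/-- First order expansion of a mountain. -/
lemma mountain_taylor (F : Facts e) {x : M} {a : TangentSpace 𝓘(ℝ, E) x} (ha : a ∈ injDomain e x)
    {c : ℝ} (hc : 0 < c) : ∀ᶠ ζ : TangentSpace 𝓘(ℝ, E) x in 𝓝 0,
      |cost x (e x a) - cost (e x ζ) (e x a) - inner ℝ a ζ| ≤ c * ‖ζ‖ := by
  have he := F.isExp
  have hder := hasFDerivAt_cost_zero he x a (injDomain_subset_segMin he x ha)
    (F.smooth_cost x a ha)
  filter_upwards [hder.isLittleO.def hc] with ζ hζ
  rw [sub_zero, he.map_zero, Real.norm_eq_abs, neg_apply, innerSL_apply_apply] at hζ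
  rw [← abs_neg]
  refine le_trans (le_of_eq ?_) hζ
  congr 1
  ring

set_option backward.isDefEq.respectTransparency false in
/-- If local supports are global then weak MTW holds. -/
theorem weakMTW_of_local (F : Facts e)
    (h : ∀ ψ : M → ℝ, CConvex ψ → ∀ x y : M,
      (∀ᶠ x' in 𝓝 x, ψ x + cost x y - cost x' y ≤ ψ x') → y ∈ cSubdiff ψ x) : WeakMTW e := by
  intro x v hv ξ η hperp
  by_contra hneg
  rw [not_le] at hneg
  obtain ⟨ε, hε, hin, hlt⟩ := exists_eps F hv hneg
  have he := F.isExp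
  have hp : v + ε • η ∈ injDomain e x := hin ε (by rw [abs_of_pos hε])
  have hm : v + (-ε) • η ∈ injDomain e x := hin (-ε) (by rw [abs_neg, abs_of_pos hε])
  obtain ⟨hη, x', h1, h2⟩ := exists_zeta F hε hv hp hm hperp hlt
  have : FiniteDimensional ℝ (TangentSpace 𝓘(ℝ, E) x) := inferInstanceAs (FiniteDimensional ℝ E)
  have hexpc : Continuous (e x) := (contMDiff_exp_fiber he x).continuous
  have hadd : ∀ a : TangentSpace 𝓘(ℝ, E) x, Tendsto (fun σ => a + σ) (𝓝 0) (𝓝 a) := by
    intro a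
    have h3 : Continuous (fun σ : TangentSpace 𝓘(ℝ, E) x => a + σ) :=
      continuous_const.add continuous_id
    have h4 := h3.tendsto 0
    rwa [add_zero] at h4
  -- admissible perturbations
  have hev : ∀ a : TangentSpace 𝓘(ℝ, E) x, a ∈ injDomain e x →
      cost x (e x a) - cost x' (e x a) < cost x (e x v) - cost x' (e x v) →
      ∀ᶠ σ : TangentSpace 𝓘(ℝ, E) x in 𝓝 0, a + σ ∈ injDomain e x ∧
        cost x (e x (a + σ)) - cost x' (e x (a + σ)) < cost x (e x v) - cost x' (e x v) := by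
    intro a ha hlt'
    have h3 := (hadd a).eventually ((F.isOpen_injDomain x).mem_nhds ha)
    have h5 : Tendsto (fun σ : TangentSpace 𝓘(ℝ, E) x => e x (a + σ)) (𝓝 0) (𝓝 (e x a)) :=
      (hexpc.tendsto a).comp (hadd a)
    have h6 := (tendsto_cost (tendsto_const_nhds (x := x)) h5).sub
      (tendsto_cost (tendsto_const_nhds (x := x')) h5)
    filter_upwards [h3, h6.eventually (gt_mem_nhds hlt')] with σ h7 h8 using ⟨h7, h8⟩
  have hs := (hev _ hp h1).and (hev _ hm h2)
  obtain ⟨B, hB1, hB2⟩ := exists_mem_interior_convexHull_affineBasis hs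
  obtain ⟨c, hc, hball⟩ := Metric.isOpen_iff.1 isOpen_interior _ hB1
  have hball' : Metric.ball (0 : TangentSpace 𝓘(ℝ, E) x) c ⊆ convexHull ℝ (range B) :=
    hball.trans interior_subset
  have hBs : ∀ j, B j ∈ {σ : TangentSpace 𝓘(ℝ, E) x | _} := fun j =>
    hB2 (subset_convexHull ℝ _ ⟨j, rfl⟩)
  have hne : Nonempty (Fin (Module.finrank ℝ (TangentSpace 𝓘(ℝ, E) x) + 1)) := ⟨0⟩
  -- the vertices
  set U : Bool × Fin (Module.finrank ℝ (TangentSpace 𝓘(ℝ, E) x) + 1) →
    TangentSpace 𝓘(ℝ, E) x := fun i => (v + (if i.1 then ε else -ε) • η) + B i.2 with hU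
  have hUi : ∀ i, U i ∈ injDomain e x ∧
      cost x (e x (U i)) - cost x' (e x (U i)) < cost x (e x v) - cost x' (e x v) := by
    rintro ⟨s, j⟩
    cases s
    · exact (hBs j).2
    · exact (hBs j).1
  have hlarge : ∀ ζ : TangentSpace 𝓘(ℝ, E) x, ∃ i, inner ℝ v ζ + c / 2 * ‖ζ‖ ≤
      inner ℝ (U i) ζ := by
    intro ζ
    obtain ⟨j, hj⟩ := exists_large hc hball' hne ζ
    rcases le_total 0 (inner ℝ η ζ : ℝ) with h3 | h3
    · refine ⟨(true, j), ?_⟩
      simp only [hU, if_true]
      rw [inner_add_left, inner_add_left, real_inner_smul_left]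
      have := mul_nonneg hε.le h3
      linarith only [this, hj]
    · refine ⟨(false, j), ?_⟩
      simp only [hU, Bool.false_eq_true, if_false]
      rw [inner_add_left, inner_add_left, real_inner_smul_left]
      have := mul_nonneg_of_nonpos_of_nonpos (neg_nonpos.2 hε.le) h3
      linarith only [this, hj]
  -- the potential
  set ψ : M → ℝ := supm (fun i => cost x (e x (U i))) (fun i => e x (U i)) with hψdef
  have hψ : CConvex ψ := cconvex_supm _ _
  have hψx : ψ x = 0 := by
    obtain ⟨i, hi⟩ := exists_supm (fun i => cost x (e x (U i))) (fun i => e x (U i)) x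
    rw [hψdef, hi, sub_self]
  have hloc : ∀ᶠ ζ : TangentSpace 𝓘(ℝ, E) x in 𝓝 0,
      cost x (e x v) - cost (e x ζ) (e x v) ≤ ψ (e x ζ) := by
    have h3 : ∀ᶠ ζ : TangentSpace 𝓘(ℝ, E) x in 𝓝 0, ∀ i,
        |cost x (e x (U i)) - cost (e x ζ) (e x (U i)) - inner ℝ (U i) ζ| ≤ c / 4 * ‖ζ‖ :=
      eventually_all.2 fun i => mountain_taylor F (hUi i).1 (by positivity)
    filter_upwards [h3, mountain_taylor F hv (c := c / 4) (by positivity)] with ζ h4 h5
    obtain ⟨i, hi⟩ := hlarge ζ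
    have h6 := (abs_le.1 (h4 i)).1
    have h7 := (abs_le.1 h5).2
    have h8 := le_supm (fun i => cost x (e x (U i))) (fun i => e x (U i)) (e x ζ) i
    rw [← hψdef] at h8
    linarith only [h6, h7, h8, hi]
  obtain ⟨δ, hδ, hδ'⟩ := Metric.eventually_nhds_iff.1 hloc
  have hsup : e x v ∈ cSubdiff ψ x := by
    refine h ψ hψ x (e x v) ?_
    rw [Metric.eventually_nhds_iff]
    refine ⟨δ, hδ, fun z hz => ?_⟩
    obtain ⟨w, hw1, hw2⟩ := F.hopfRinow x z
    have h9 := hδ' (y := w) (by rwa [dist_zero_right, ← hw2, dist_comm])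
    rw [hw1] at h9
    rw [hψx, zero_add]
    exact h9
  have h10 := hsup x'
  rw [hψx, zero_add] at h10
  obtain ⟨i, hi⟩ := exists_supm (fun i => cost x (e x (U i))) (fun i => e x (U i)) x'
  rw [← hψdef] at hi
  rw [hi] at h10
  exact absurd (hUi i).2 (not_lt.2 h10)

end

end Vale.Agent.P234.Reg
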